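import Vale.Agent.P371.H816.L14

/-!
The sharp one-dimensional Lieb-Thirring constants for `1/2 < γ < 3/2`, and their consequences in all
dimensions: new bounds on the Lieb-Thirring constants `L_{γ,d}` and on the constant in the
Lieb-Thirring kinetic energy inequality.
-/

namespace Vale.Agent.Results.P371.AllDimensions

open Vale.Agent.P371

/-- With `r(γ) = 2 ((γ-1/2)/(γ+1/2))^(γ-1/2)`:
* for `1/2 < γ < 3/2` and `m ≥ 1` : `L_γ(m) = r(γ) L^cl_γ`, `L_γ(1) = L^{(1)}_γ` and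
  `L_γ(m) = L_γ(1)`;
* in every dimension `d ≥ 1`, for matrix potentials of every size `m`:
  `L_{γ,d}(m) ≤ r(γ) L^cl_{γ,d}` for `1 ≤ γ < 3/2`, in particular
  `L_{1,d}(m) ≤ (2/√3) L^cl_{1,d}`; and `L_{γ,d}(m) ≤ r(γ) r(γ+1/2) L^cl_{γ,d}` for
  `1/2 < γ < 1`, `d ≥ 2`;
* for `f_1, ..., f_N` in `H^1(ℝ^d; ℂ^m)` orthonormal in `L^2`, with one-particle density matrix `R`:
  `∑_j ∫ |∇f_j|^2 ≥ (√3/2)^(2/d) K^cl_d ∫ tr R^(1+2/d)`. -/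
theorem result :
    (∀ (γ : ℝ) (m : ℕ), 1 / 2 < γ → γ < 3 / 2 → 1 ≤ m →
      LT.LTconst γ m =
        ENNReal.ofReal (2 * ((γ - 1 / 2) / (γ + 1 / 2)) ^ (γ - 1 / 2) * LT.Lcl γ) ∧
      LT.LTconst γ 1 = LT.LTone γ ∧ LT.LTconst γ m = LT.LTconst γ 1) ∧
    (∀ (γ : ℝ) (d m : ℕ), 1 ≤ γ → γ < 3 / 2 → 1 ≤ d →
      DimLT.LTconst γ d m ≤ ENNReal.ofReal (DimLT.ratio γ * DimLT.Lcl γ d)) ∧
    (∀ d m : ℕ, 1 ≤ d →
      DimLT.LTconst 1 d m ≤ ENNReal.ofReal (2 / Real.sqrt 3 * DimLT.Lcl 1 d)) ∧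
    (∀ (γ : ℝ) (d m : ℕ), 1 / 2 < γ → γ < 1 → 2 ≤ d →
      DimLT.LTconst γ d m ≤
        ENNReal.ofReal (DimLT.ratio γ * DimLT.ratio (γ + 1 / 2) * DimLT.Lcl γ d)) ∧
    (∀ d m : ℕ, 1 ≤ d →
      DimLT.Kinetic d m ((Real.sqrt 3 / 2) ^ (2 / (d : ℝ)) * DimLT.Kcl d)) := by
  refine ⟨fun γ m h1 h2 hm => ?_, fun γ d m h1 h2 hd => H816.LT_le_one m h1 h2 hd,
    fun d m hd => H816.LT_le_gamma_one m hd, fun γ d m h1 h2 hd => H816.LT_le_lt_one m h1 h2 hd,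
    fun d m hd N f f' hf ho => ?_⟩
  · have hM : ∀ N m, G.MainHyp γ (G.Cg γ) N m := fun N m => PI.mainHyp h1 h2 N m
    have h := G.final_of_main h1 hM m hm
    exact ⟨h.1.trans h.2.2, (G.final_of_main h1 hM 1 le_rfl).1, h.2.1⟩
  · have h := H816.kinetic hd (H816.PP_pos d (by norm_num)) (H816.LP_of_one_le (m := m) d le_rfl)
      hf ho
    rw [H816.kin_const hd] at h
    exact h

end Vale.Agent.Results.P371.AllDimensions
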