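import Vale.Agent.P371.H816.OpMain
import Vale.Agent.P371.H816.OpLower

/-!
The sharp one-dimensional Lieb-Thirring constants for `1/2 < γ < 3/2`: operator-valued potentials
(every separable Hilbert space, of finite or infinite dimension), matrix and scalar potentials.
-/

namespace Vale.Agent.Results.P371.OperatorValued

open Vale.Agent.P371

universe u

/-- For all `1/2 < γ < 3/2`, with the constant `C = 2 ((γ-1/2)/(γ+1/2))^(γ-1/2) L^cl_γ`:
* for every separable complex Hilbert space `G ≠ 0` the Lieb-Thirring constant `L_γ(G)` of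
  potentials with values in the positive operators of `G` is `C` (`m = ∞` included);
* for every `m ≥ 1`: `L_γ(m) = C`, `L_γ(m) = L_γ(1)` and `L_γ(1) = L^{(1)}_γ`. -/
theorem result (γ : ℝ) (hγ : 1 / 2 < γ) (hγ' : γ < 3 / 2) :
    (∀ (G : Type u) [NormedAddCommGroup G] [InnerProductSpace ℂ G] [CompleteSpace G]
      [TopologicalSpace.SeparableSpace G] [Nontrivial G],
      OpLT.LTconst γ G =
        ENNReal.ofReal (2 * ((γ - 1 / 2) / (γ + 1 / 2)) ^ (γ - 1 / 2) * LT.Lcl γ)) ∧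
    (∀ m : ℕ, 1 ≤ m → LT.LTconst γ m =
        ENNReal.ofReal (2 * ((γ - 1 / 2) / (γ + 1 / 2)) ^ (γ - 1 / 2) * LT.Lcl γ) ∧
      LT.LTconst γ m = LT.LTconst γ 1) ∧
    LT.LTconst γ 1 = LT.LTone γ := by
  have hM : ∀ N m, G.MainHyp γ (G.Cg γ) N m := fun N m => PI.mainHyp hγ hγ' N m
  have hold := fun (m : ℕ) (hm : 1 ≤ m) => G.final_of_main hγ hM m hm
  refine ⟨?_, fun m hm => ⟨(hold m hm).1.trans (hold m hm).2.2, (hold m hm).2.1⟩,
    (hold 1 le_rfl).1⟩
  intro G _ _ _ _ _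
  refine le_antisymm ?_ ?_
  · unfold OpLT.LTconst
    refine iSup_le fun W => iSup_le fun hW => iSup_le fun h0 => ?_
    have hC : 2 * ((γ - 1 / 2) / (γ + 1 / 2)) ^ (γ - 1 / 2) * LT.Lcl γ =
        Vale.Agent.P371.G.Cg γ := (Vale.Agent.P371.G.Cg_eq hγ).symm
    rw [ENNReal.div_le_iff h0 hW.finite.ne, hC]
    exact H816.op_rieszMean_le hγ (Vale.Agent.P371.G.Cg_pos hγ).le hM hW
  · have h1 := H816.LTconst_le_op (G := G) (γ := γ) (by linarith)
    rw [LT.LTconst_eq, ((hold 1 le_rfl).1.trans (hold 1 le_rfl).2.2)] at h1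
    exact h1

end Vale.Agent.Results.P371.OperatorValued
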